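import Vale.Agent.P195.Weyl.Basic

/-! Symbols of the order filtration, and the action on homogeneous polynomials. -/

noncomputable section

namespace Vale.Agent.P195.Weyl

open MvPolynomial Finsupp

/-- Symbols: `x` variables left, `ξ` variables right. -/
abbrev Sym : Type := MvPolynomial (Fin 2 ⊕ Fin 2) ℂ

/-- Exponent of the symbol of `x^p ∂^q`. -/
def key (p q : Exp) : Fin 2 ⊕ Fin 2 →₀ ℕ := Finsupp.sumElim p q

theorem key_add (p q r s : Exp) : key (p + r) (q + s) = key p q + key r s := by
  ext (i | i) <;> simp [key]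

theorem key_inj {p q r s : Exp} (h : key p q = key r s) : p = r ∧ q = s :=
  ⟨Finsupp.ext fun i => by simpa [key, Finsupp.sumElim_apply] using DFunLike.congr_fun h (.inl i),
   Finsupp.ext fun i => by simpa [key, Finsupp.sumElim_apply] using DFunLike.congr_fun h (.inr i)⟩

theorem exists_key (k : Fin 2 ⊕ Fin 2 →₀ ℕ) : ∃ p q, key p q = k :=
  ⟨Finsupp.equivFunOnFinite.symm fun i => k (.inl i),
   Finsupp.equivFunOnFinite.symm fun i => k (.inr i), by
    ext (i | i) <;> simp [key, Finsupp.sumElim_apply]⟩

theorem key_mapDomain (p : Exp) : key p 0 = p.mapDomain Sum.inl := by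
  ext (i | i)
  · rw [Finsupp.mapDomain_apply Sum.inl_injective]; simp [key, Finsupp.sumElim_apply]
  · rw [Finsupp.mapDomain_of_notMem_range _ _ (by simp)]; simp [key, Finsupp.sumElim_apply]

/-- The symbol of order `n`. -/
def symb (n : ℕ) : Op →ₗ[ℂ] Sym :=
  ∑ q ∈ (Finset.univ : Finset (Fin 2)).finsuppAntidiag n,
    ((LinearMap.mulRight ℂ (monomial (key 0 q) (1 : ℂ))).comp
      (rename Sum.inl).toLinearMap).comp (coef q)

theorem mem_antidiag {n : ℕ} {q : Exp} :
    q ∈ (Finset.univ : Finset (Fin 2)).finsuppAntidiag n ↔ q.degree = n := by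
  simp [Finset.mem_finsuppAntidiag, Finsupp.degree_eq_sum]

theorem symb_apply (n : ℕ) (u : Op) :
    symb n u = ∑ q ∈ (Finset.univ : Finset (Fin 2)).finsuppAntidiag n,
      rename Sum.inl (coef q u) * monomial (key 0 q) 1 := by
  simp [symb]

theorem symb_nmon (n : ℕ) (p q : Exp) :
    symb n (nmon p q) = if q.degree = n then monomial (key p q) 1 else 0 := by
  rw [symb_apply]
  split_ifs with h
  · rw [Finset.sum_eq_single q (fun s _ hs => by simp [coef_nmon, hs.symm])
      (fun hs => absurd (mem_antidiag.mpr h) hs), coef_nmon, if_pos rfl, rename_monomial,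
      monomial_mul, one_mul, ← key_mapDomain, ← key_add, add_zero, zero_add]
  · refine Finset.sum_eq_zero fun s hs => ?_
    rw [coef_nmon, if_neg (fun e : q = s => h (e ▸ mem_antidiag.mp hs)), map_zero, zero_mul]

theorem coeff_symb (n : ℕ) (u : Op) (p q : Exp) :
    coeff (key p q) (symb n u) = if q.degree = n then coeff p (coef q u) else 0 := by
  classical
  have hsum : ∀ f : Pol, ∀ s : Exp, coeff (key p q) (rename Sum.inl f * monomial (key 0 s) 1)
      = if q = s then coeff p f else 0 := by
    intro f s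
    induction f using MvPolynomial.induction_on' with
    | monomial r c =>
      rw [rename_monomial, monomial_mul, ← key_mapDomain, ← key_add, add_zero, zero_add,
        coeff_monomial, coeff_monomial, mul_one]
      by_cases hq : q = s
      · subst hq
        by_cases hr : r = p
        · simp [hr]
        · rw [if_neg (fun e => hr (key_inj e).1), if_pos rfl, if_neg hr]
      · rw [if_neg (fun e => hq (key_inj e).2.symm), if_neg hq]
    | add f g hf hg =>
      rw [map_add, add_mul, coeff_add, hf, hg, coeff_add]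
      split_ifs <;> simp
  simp only [symb_apply, coeff_sum, hsum, Finset.sum_ite_eq, mem_antidiag]

theorem symb_eq_zero_of_lt {m k : ℤ} {n : ℕ} {u : Op} (hu : u ∈ fil m k) (h : k < n) :
    symb n u = 0 := by
  rw [symb_apply]
  refine Finset.sum_eq_zero fun q hq => ?_
  rw [coef_eq_zero hu (by rw [mem_antidiag.mp hq]; exact h), map_zero, zero_mul]

theorem symb_eq_zero_iff {m : ℤ} {n : ℕ} {u : Op} (hu : u ∈ fil m n) :
    symb n u = 0 ↔ u ∈ fil m ((n : ℤ) - 1) := by
  refine ⟨fun h => mem_fil_pred hu fun q hq => MvPolynomial.ext _ _ fun p => ?_,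
    fun h => symb_eq_zero_of_lt h (by omega)⟩
  have := coeff_symb n u p q
  rw [if_pos hq, h, coeff_zero] at this
  rw [coeff_zero, ← this]

/-- Symbols of weight `m` and order `n` have bidegree `(m + n, n)`. -/
theorem symb_bideg {m k : ℤ} {n : ℕ} {u : Op} (hu : u ∈ fil m k) :
    ∀ e, coeff e (symb n u) ≠ 0 →
      ((e (.inl 0) : ℤ) + e (.inl 1) = m + n) ∧ ((e (.inr 0) : ℤ) + e (.inr 1) = n) := by
  intro e he
  obtain ⟨p, q, rfl⟩ := exists_key e
  rw [coeff_symb] at he
  split_ifs at he with hq
  · have hm : (p.degree : ℤ) - q.degree = m := by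
      by_contra hne; exact he (coef_homog hu q p hne)
    rw [degree_two] at hm hq
    rw [degree_two] at hm
    simp only [key, Finsupp.sumElim_apply, Sum.elim_inl, Sum.elim_inr]
    constructor <;> omega
  · exact absurd rfl he

theorem symb_surj {m : ℤ} {n : ℕ} {f : Sym}
    (hf : ∀ e, coeff e f ≠ 0 →
      ((e (.inl 0) : ℤ) + e (.inl 1) = m + n) ∧ ((e (.inr 0) : ℤ) + e (.inr 1) = n)) :
    ∃ u ∈ fil m n, symb n u = f := by
  have hg : ∀ e, ∃ u : Op, (coeff e f ≠ 0 → u ∈ fil m n ∧ symb n u = monomial e 1) := by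
    intro e
    obtain ⟨p, q, rfl⟩ := exists_key e
    refine ⟨nmon p q, fun he => ?_⟩
    obtain ⟨h1, h2⟩ := hf _ he
    simp only [key, Finsupp.sumElim_apply, Sum.elim_inl, Sum.elim_inr] at h1 h2
    have hq : q.degree = n := by rw [degree_two]; omega
    exact ⟨nmon_mem (by rw [degree_two, degree_two]; push_cast; omega) (by omega),
      by rw [symb_nmon, if_pos hq]⟩
  choose g hg using hg
  refine ⟨∑ e ∈ f.support, coeff e f • g e, Submodule.sum_mem _ fun e he =>
    Submodule.smul_mem _ _ (hg e (MvPolynomial.mem_support_iff.mp he)).1, ?_⟩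
  rw [map_sum]
  conv_rhs => rw [f.as_sum]
  refine Finset.sum_congr rfl fun e he => ?_
  rw [map_smul, (hg e (MvPolynomial.mem_support_iff.mp he)).2, smul_monomial, smul_eq_mul, mul_one]

theorem d_pow_mul_nmon_sub (a : Fin 2) (r s : Exp) (k : ℕ) :
    d a ^ k * nmon r s - nmon r (s + single a k) ∈
      fil ((r.degree : ℤ) - s.degree - k) ((s.degree : ℤ) + k - 1) := by
  induction k with
  | zero => simp
  | succ k ih =>
    have h1 := d_mul_mem ih a
    have h2 : d a * nmon r (s + single a k) - nmon r (s + single a (k + 1)) ∈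
        fil ((r.degree : ℤ) - s.degree - k - 1) ((s.degree : ℤ) + k) := by
      rw [d_nmon, add_assoc, ← Finsupp.single_add, add_sub_cancel_left]
      rcases eq_or_ne (r a) 0 with h | h
      · simp [h]
      · refine Submodule.smul_mem _ _ (nmon_mem ?_ ?_)
        · rw [degree_sub_single h, map_add, Finsupp.degree_single]; push_cast; omega
        · rw [map_add, Finsupp.degree_single]; push_cast; omega
    rw [show d a ^ (k + 1) * nmon r s - nmon r (s + single a (k + 1)) =
      d a * (d a ^ k * nmon r s - nmon r (s + single a k)) +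
        (d a * nmon r (s + single a k) - nmon r (s + single a (k + 1))) by
          rw [pow_succ', mul_assoc, mul_sub]; abel]
    push_cast
    refine add_mem ?_ ?_
    · convert h1 using 2 <;> ring
    · convert h2 using 2 <;> ring

theorem nmon_mul_sub (p q r s : Exp) :
    nmon p q * nmon r s - nmon (p + r) (q + s) ∈
      fil ((p.degree : ℤ) - q.degree + (r.degree - s.degree))
        ((q.degree : ℤ) + s.degree - 1) := by
  have a := d_pow_mul_nmon_sub 1 r s (q 1)
  have b := d_pow_mul_nmon_sub 0 r (s + single 1 (q 1)) (q 0)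
  have hq : s + single 1 (q 1) + single 0 (q 0) = q + s := by
    ext i; fin_cases i <;> simp [add_comm]
  rw [hq] at b
  have c := mulP_mul_mem (add_mem
    (show d 0 ^ q 0 * (d 1 ^ q 1 * nmon r s - nmon r (s + single 1 (q 1))) ∈
        fil ((r.degree : ℤ) - s.degree - q.degree) ((q.degree : ℤ) + s.degree - 1) by
      have := d_pow_mul_mem a 0 (q 0)
      convert this using 2 <;> rw [degree_two q] <;> push_cast <;> ring)
    (show d 0 ^ q 0 * nmon r (s + single 1 (q 1)) - nmon r (q + s) ∈
        fil ((r.degree : ℤ) - s.degree - q.degree) ((q.degree : ℤ) + s.degree - 1) by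
      convert b using 2 <;> rw [map_add, Finsupp.degree_single, degree_two q] <;> push_cast <;>
        ring)) p
  convert c using 2
  · ring
  · rw [mul_sub (d 0 ^ q 0), sub_add_sub_cancel, mul_sub, mulP_nmon]
    simp only [nmon, dpow, mul_assoc]

theorem symb_mul {m m' : ℤ} {n n' : ℕ} {u v : Op} (hu : u ∈ fil m n) (hv : v ∈ fil m' n') :
    symb (n + n') (u * v) = symb n u * symb n' v := by
  refine fil_induction (motive := fun u => symb (n + n') (u * v) = symb n u * symb n' v) hu
    (fun p q hm hn => ?_) (by simp) (fun u w hu hw => ?_) (fun c u hu => ?_)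
  · refine fil_induction
      (motive := fun v => symb (n + n') (nmon p q * v) = symb n (nmon p q) * symb n' v) hv
      (fun r s hr hs => ?_) (by simp) (fun u w hu hw => ?_) (fun c u hu => ?_)
    · have h := symb_eq_zero_of_lt (n := n + n') (nmon_mul_sub p q r s) (by push_cast; omega)
      rw [map_sub, sub_eq_zero] at h
      rw [h, symb_nmon, symb_nmon, symb_nmon]
      by_cases h1 : q.degree = n
      · by_cases h2 : s.degree = n'
        · rw [if_pos (by rw [map_add, h1, h2]), if_pos h1, if_pos h2, monomial_mul, one_mul,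
            key_add]
        · rw [if_neg (by rw [map_add]; omega), if_neg h2, mul_zero]
      · rw [if_neg (by rw [map_add]; omega), if_neg h1, zero_mul]
    · rw [mul_add, map_add, map_add, hu, hw, mul_add]
    · rw [mul_smul_comm, map_smul, map_smul, hu, mul_smul_comm]
  · rw [add_mul, map_add, map_add, hu, hw, add_mul]
  · rw [smul_mul_assoc, map_smul, map_smul, hu, smul_mul_assoc]

theorem comm_mem {m m' : ℤ} {n n' : ℕ} {u v : Op} (hu : u ∈ fil m n) (hv : v ∈ fil m' n') :
    u * v - v * u ∈ fil (m + m') ((n : ℤ) + n' - 1) := by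
  have h1 : u * v - v * u ∈ fil (m + m') ((n + n' : ℕ) : ℤ) := by
    refine sub_mem ?_ ?_
    · convert mul_mem hu hv using 2; push_cast; ring
    · convert mul_mem hv hu using 2 <;> push_cast <;> ring
  have h2 := (symb_eq_zero_iff h1).mp (by
    rw [map_sub, symb_mul hu hv, show n + n' = n' + n by ring, symb_mul hv hu, mul_comm, sub_self])
  convert h2 using 2; push_cast; ring

theorem symb_x (a : Fin 2) : symb 0 (x a) = X (.inl a) := by
  rw [x_eq, symb_nmon, if_pos (map_zero _), key_mapDomain, Finsupp.mapDomain_single]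
  rfl

theorem symb_d (a : Fin 2) : symb 1 (d a) = X (.inr a) := by
  rw [d_eq, symb_nmon, if_pos (Finsupp.degree_single a 1)]
  have : key 0 (single a 1) = single (Sum.inr a) 1 := by
    ext (i | i) <;> simp [key, Finsupp.single_apply]
  rw [this]
  rfl

theorem symb_one : symb 0 (1 : Op) = 1 := by
  rw [← nmon_zero_zero, symb_nmon, if_pos (map_zero _), key_mapDomain, Finsupp.mapDomain_zero]
  rfl

/-! ### Action on homogeneous polynomials -/

theorem d_pow_monomial (a : Fin 2) (r : Exp) (c : ℂ) (k : ℕ) :
    (d a ^ k) (monomial r c) = monomial (r - single a k) (c * (r a).descFactorial k) := by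
  induction k with
  | zero => simp
  | succ k ih =>
    rw [pow_succ', Module.End.mul_apply, ih, d_apply, pderiv_monomial, tsub_tsub,
      ← Finsupp.single_add, Nat.descFactorial_succ]
    simp
    ring_nf

theorem nmon_apply_monomial (p q r : Exp) (c : ℂ) :
    nmon p q (monomial r c) = monomial (p + (r - q))
      (c * ((r 0).descFactorial (q 0) * (r 1).descFactorial (q 1))) := by
  rw [nmon, dpow, Module.End.mul_apply, Module.End.mul_apply, mulP_apply, d_pow_monomial,
    d_pow_monomial, monomial_mul, one_mul]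
  have : r - single 1 (q 1) - single 0 (q 0) = r - q := by
    ext i; fin_cases i <;> simp
  rw [this]
  congr 1
  simp
  ring

theorem nmon_apply_coeff {p q r : Exp} {c : ℂ}
    (h : c * (((r 0).descFactorial (q 0) : ℂ) * (r 1).descFactorial (q 1)) ≠ 0) :
    q 0 ≤ r 0 ∧ q 1 ≤ r 1 ∧ ((p + (r - q)).degree : ℤ) = p.degree + r.degree - q.degree := by
  simp only [ne_eq, mul_eq_zero, Nat.cast_eq_zero, Nat.descFactorial_eq_zero_iff_lt, not_or,
    not_lt] at h
  refine ⟨h.2.1, h.2.2, ?_⟩
  simp only [degree_two, Finsupp.add_apply, Finsupp.tsub_apply]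
  omega

/-- An operator of weight `m` maps degree `k` to degree `k + m`. -/
theorem apply_homog {m n : ℤ} {u : Op} (hu : u ∈ fil m n) {f : Pol} {k : ℕ}
    (hf : f.IsHomogeneous k) : (u f).IsHomogeneous ((k : ℤ) + m).toNat := by
  refine fil_induction (motive := fun u => (u f).IsHomogeneous ((k : ℤ) + m).toNat) hu
    (fun p q hm _ => ?_) (by simpa using isHomogeneous_zero _ _ _)
    (fun u v hu hv => hu.add hv) (fun c u hu => ?_)
  · rw [f.as_sum, map_sum]
    refine MvPolynomial.IsHomogeneous.sum _ _ _ fun r hr => ?_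
    rw [nmon_apply_monomial]
    by_cases h0 : coeff r f * (((r 0).descFactorial (q 0) : ℂ) * (r 1).descFactorial (q 1)) = 0
    · rw [h0, map_zero]; exact isHomogeneous_zero _ _ _
    · refine isHomogeneous_monomial _ ?_
      obtain ⟨-, -, hd⟩ := nmon_apply_coeff (p := p) h0
      have hk : r.degree = k := by
        rw [← hf (MvPolynomial.mem_support_iff.mp hr)]
        simp [Finsupp.weight_apply, Finsupp.degree_eq_sum, Finsupp.sum_fintype]
      omega
  · rw [LinearMap.smul_apply, smul_eq_C_mul]
    simpa using (isHomogeneous_C _ c).mul hu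

/-- An operator of weight `m` kills degree `k` if `k + m < 0`. -/
theorem apply_eq_zero {m n : ℤ} {u : Op} (hu : u ∈ fil m n) {f : Pol} {k : ℕ}
    (hf : f.IsHomogeneous k) (h : (k : ℤ) + m < 0) : u f = 0 := by
  refine fil_induction (motive := fun u => u f = 0) hu (fun p q hm _ => ?_) (by simp)
    (fun u v hu hv => by simp [hu, hv]) (fun c u hu => by simp [hu])
  rw [f.as_sum, map_sum]
  refine Finset.sum_eq_zero fun r hr => ?_
  rw [nmon_apply_monomial]
  by_contra hne
  obtain ⟨h0, h1, -⟩ := nmon_apply_coeff (p := p) (fun h0 => hne (by rw [h0, map_zero]))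
  have hk : r.degree = k := by
    rw [← hf (MvPolynomial.mem_support_iff.mp hr)]
    simp [Finsupp.weight_apply, Finsupp.degree_eq_sum, Finsupp.sum_fintype]
  rw [degree_two] at hk
  rw [degree_two p, degree_two q] at hm
  omega

/-- The Euler operator. -/
theorem euler_apply {f : Pol} {k : ℕ} (hf : f.IsHomogeneous k) :
    (x 0 * d 0 + x 1 * d 1) f = (k : ℂ) • f := by
  rw [Nat.cast_smul_eq_nsmul, ← hf.sum_X_mul_pderiv, Fin.sum_univ_two]
  rfl

end Vale.Agent.P195.Weyl
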