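import Mathlib.Algebra.MvPolynomial.PDeriv
import Mathlib.Algebra.Algebra.Bilinear
import Mathlib.RingTheory.MvPolynomial.Homogeneous
import Mathlib.RingTheory.MvPolynomial.EulerIdentity
import Mathlib.LinearAlgebra.FiniteDimensional.Basic
import Mathlib.Algebra.Order.Antidiag.Finsupp
import Mathlib.Data.Complex.Basic
import Mathlib.Tactic.NoncommRing
import Mathlib.Tactic.FinCases

/-! The Weyl algebra in two variables: normal monomials, filtration by order, coefficients. -/

noncomputable section

namespace Vale.Agent.P195.Weyl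

open MvPolynomial Finsupp

/-- Polynomials in two variables. -/
abbrev Pol : Type := MvPolynomial (Fin 2) ℂ

/-- Operators on polynomials. -/
abbrev Op : Type := Module.End ℂ Pol

/-- Exponents. -/
abbrev Exp : Type := Fin 2 →₀ ℕ

/-- Multiplication by a polynomial. -/
def mulP : Pol →ₗ[ℂ] Op := LinearMap.mul ℂ Pol

theorem mulP_apply (f g : Pol) : mulP f g = f * g := rfl

theorem mulP_mul (f g : Pol) : mulP (f * g) = mulP f * mulP g :=
  LinearMap.ext fun h => mul_assoc f g h

theorem mulP_one : mulP 1 = 1 := LinearMap.ext fun h => one_mul h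

/-- Multiplication by a variable. -/
def x (a : Fin 2) : Op := mulP (X a)

/-- A partial derivative. -/
def d (a : Fin 2) : Op := (pderiv a).toLinearMap

theorem d_apply (a : Fin 2) (f : Pol) : d a f = pderiv a f := rfl

theorem x_apply (a : Fin 2) (f : Pol) : x a f = X a * f := rfl

theorem d_comm (a b : Fin 2) : Commute (d a) (d b) := by
  refine LinearMap.ext fun f => MvPolynomial.ext _ _ fun m => ?_
  simp only [Module.End.mul_apply, d_apply, coeff_pderiv]
  rcases eq_or_ne a b with rfl | h
  · rfl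
  · simp only [Finsupp.add_apply, Finsupp.single_eq_of_ne h, Finsupp.single_eq_of_ne h.symm,
      add_zero]
    rw [add_right_comm]
    ring

theorem x_comm_mulP (a : Fin 2) (f : Pol) : x a * mulP f = mulP f * x a := by
  rw [x, ← mulP_mul, ← mulP_mul, mul_comm]

theorem d_mulP (a : Fin 2) (f : Pol) : d a * mulP f = mulP f * d a + mulP (pderiv a f) := by
  refine LinearMap.ext fun g => ?_
  simp only [Module.End.mul_apply, LinearMap.add_apply, mulP_apply, d_apply, pderiv_mul]
  ring

theorem d_x_self (a : Fin 2) : d a * x a = x a * d a + 1 := by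
  rw [x, d_mulP, pderiv_X_self, mulP_one]

theorem d_x_ne {a b : Fin 2} (h : a ≠ b) : d a * x b = x b * d a := by
  rw [x, d_mulP, pderiv_X_of_ne h.symm, map_zero, add_zero]

/-- `∂^q`. -/
def dpow (q : Exp) : Op := d 0 ^ q 0 * d 1 ^ q 1

@[simp] theorem dpow_zero : dpow 0 = 1 := by simp [dpow]

theorem dpow_add_single (q : Exp) (a : Fin 2) : dpow (q + single a 1) = d a * dpow q := by
  fin_cases a
  · simp [dpow, pow_succ', mul_assoc]
  · simp [dpow, pow_succ', ← mul_assoc, ((d_comm 1 0).pow_right (q 0)).eq]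

theorem d_pow_x (a : Fin 2) (k : ℕ) :
    d a ^ k * x a = x a * d a ^ k + k • d a ^ (k - 1) := by
  induction k with
  | zero => simp
  | succ k ih =>
    rw [pow_succ', mul_assoc, ih, mul_add, ← mul_assoc, d_x_self, add_mul, one_mul, mul_assoc,
      ← pow_succ', mul_smul_comm, add_assoc, succ_nsmul', Nat.add_sub_cancel]
    rcases k with _ | k
    · simp
    · rw [Nat.add_sub_cancel, ← pow_succ']

theorem d_pow_x_ne {a b : Fin 2} (h : a ≠ b) (k : ℕ) : d a ^ k * x b = x b * d a ^ k :=
  (Commute.pow_left (d_x_ne h) k).eq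

theorem dpow_x (q : Exp) (a : Fin 2) :
    dpow q * x a = x a * dpow q + q a • dpow (q - single a 1) := by
  fin_cases a
  · simp only [dpow, Fin.zero_eta]
    rw [mul_assoc, d_pow_x_ne (by decide), ← mul_assoc, d_pow_x, add_mul, mul_assoc,
      smul_mul_assoc]
    simp
  · simp only [dpow, Fin.mk_one]
    rw [mul_assoc, d_pow_x, mul_add, ← mul_assoc, d_pow_x_ne (by decide), mul_assoc, mul_smul_comm]
    simp

/-- The normal monomial `x^p ∂^q`. -/
def nmon (p q : Exp) : Op := mulP (monomial p 1) * dpow q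

theorem nmon_zero_zero : nmon 0 0 = 1 := by simp [nmon, mulP_one]

theorem mulP_nmon (r p q : Exp) : mulP (monomial r 1) * nmon p q = nmon (r + p) q := by
  rw [nmon, ← mul_assoc, ← mulP_mul, monomial_mul, one_mul, nmon]

theorem d_nmon (a : Fin 2) (p q : Exp) :
    d a * nmon p q = nmon p (q + single a 1) + (p a : ℂ) • nmon (p - single a 1) q := by
  rw [nmon, ← mul_assoc, d_mulP, add_mul, mul_assoc, ← dpow_add_single, pderiv_monomial, one_mul]
  have : monomial (p - single a 1) ((p a : ℕ) : ℂ) = (p a : ℂ) • monomial (p - single a 1) 1 := by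
    rw [smul_monomial, smul_eq_mul, mul_one]
  rw [this, map_smul, smul_mul_assoc, nmon, nmon]

theorem x_eq (a : Fin 2) : x a = nmon (single a 1) 0 := by simp [nmon, x, X]

theorem d_eq (a : Fin 2) : d a = nmon 0 (single a 1) := by
  rw [← zero_add (single a 1), nmon, dpow_add_single]
  simp [mulP_one]

/-- Operators of weight `m` and order at most `n`. -/
def fil (m n : ℤ) : Submodule ℂ Op :=
  Submodule.span ℂ {u | ∃ p q : Exp, (p.degree : ℤ) - q.degree = m ∧ (q.degree : ℤ) ≤ n ∧
    nmon p q = u}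

theorem nmon_mem {m n : ℤ} {p q : Exp} (hm : (p.degree : ℤ) - q.degree = m)
    (hn : (q.degree : ℤ) ≤ n) : nmon p q ∈ fil m n :=
  Submodule.subset_span ⟨p, q, hm, hn, rfl⟩

/-- Induction on generators of `fil`. -/
theorem fil_induction {m n : ℤ} {motive : Op → Prop} {u : Op} (hu : u ∈ fil m n)
    (gen : ∀ p q : Exp, (p.degree : ℤ) - q.degree = m → (q.degree : ℤ) ≤ n → motive (nmon p q))
    (zero : motive 0) (add : ∀ u v, motive u → motive v → motive (u + v))
    (smul : ∀ (c : ℂ) u, motive u → motive (c • u)) : motive u := by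
  refine Submodule.span_induction (p := fun u _ => motive u) ?_ zero
    (fun u v _ _ => add u v) (fun c u _ => smul c u) hu
  rintro _ ⟨p, q, hm, hn, rfl⟩
  exact gen p q hm hn

theorem fil_mono {m n n' : ℤ} (h : n ≤ n') : fil m n ≤ fil m n' := by
  refine Submodule.span_mono ?_
  rintro _ ⟨p, q, hm, hn, rfl⟩
  exact ⟨p, q, hm, hn.trans h, rfl⟩

theorem fil_neg {m n : ℤ} (h : n < 0) : fil m n = ⊥ := by
  rw [fil, Submodule.span_eq_bot]
  rintro _ ⟨p, q, -, hn, rfl⟩
  omega

theorem fil_empty {m n : ℤ} (h : m + n < 0) : fil m n = ⊥ := by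
  rw [fil, Submodule.span_eq_bot]
  rintro _ ⟨p, q, hm, hn, rfl⟩
  omega

theorem one_mem {n : ℤ} (h : 0 ≤ n) : (1 : Op) ∈ fil 0 n :=
  nmon_zero_zero ▸ nmon_mem (by simp) (by simpa using h)

theorem x_mem (a : Fin 2) {n : ℤ} (h : 0 ≤ n) : x a ∈ fil 1 n :=
  x_eq a ▸ nmon_mem (by simp) (by simpa using h)

theorem d_mem (a : Fin 2) {n : ℤ} (h : 1 ≤ n) : d a ∈ fil (-1) n :=
  d_eq a ▸ nmon_mem (by simp) (by simpa using h)

theorem degree_sub_single {p : Exp} {a : Fin 2} (h : p a ≠ 0) :
    ((p - single a 1).degree : ℤ) = p.degree - 1 := by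
  have h2 := congrArg Finsupp.degree
    (tsub_add_cancel_of_le (Finsupp.single_le_iff.mpr (Nat.one_le_iff_ne_zero.mpr h)))
  rw [map_add, Finsupp.degree_single] at h2
  omega

theorem d_mul_mem {m n : ℤ} {u : Op} (hu : u ∈ fil m n) (a : Fin 2) :
    d a * u ∈ fil (m - 1) (n + 1) := by
  refine fil_induction (motive := fun u => d a * u ∈ fil (m - 1) (n + 1)) hu
    (fun p q hm hn => ?_) ?_ (fun u v hu hv => ?_) (fun c u hu => ?_)
  · rw [d_nmon]
    refine add_mem (nmon_mem ?_ ?_) ?_
    · rw [map_add, Finsupp.degree_single]; push_cast; omega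
    · rw [map_add, Finsupp.degree_single]; push_cast; omega
    · rcases eq_or_ne (p a) 0 with h | h
      · simp [h]
      · exact Submodule.smul_mem _ _
          (nmon_mem (by rw [degree_sub_single h]; omega) (by omega))
  · simp
  · rw [mul_add]; exact add_mem hu hv
  · rw [mul_smul_comm]; exact Submodule.smul_mem _ _ hu

theorem d_pow_mul_mem {m n : ℤ} {u : Op} (hu : u ∈ fil m n) (a : Fin 2) (k : ℕ) :
    d a ^ k * u ∈ fil (m - k) (n + k) := by
  induction k with
  | zero => simpa using hu
  | succ k ih =>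
    rw [pow_succ', mul_assoc]
    have := d_mul_mem ih a
    convert this using 2 <;> push_cast <;> ring

theorem degree_two (q : Exp) : q.degree = q 0 + q 1 := by
  rw [Finsupp.degree_eq_sum, Fin.sum_univ_two]

theorem dpow_mul_mem {m n : ℤ} {u : Op} (hu : u ∈ fil m n) (q : Exp) :
    dpow q * u ∈ fil (m - q.degree) (n + q.degree) := by
  rw [dpow, mul_assoc]
  have := d_pow_mul_mem (d_pow_mul_mem hu 1 (q 1)) 0 (q 0)
  convert this using 2 <;> rw [degree_two] <;> push_cast <;> ring

theorem mulP_mul_mem {m n : ℤ} {u : Op} (hu : u ∈ fil m n) (r : Exp) :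
    mulP (monomial r 1) * u ∈ fil (m + r.degree) n := by
  refine fil_induction (motive := fun u => mulP (monomial r 1) * u ∈ fil (m + r.degree) n) hu
    (fun p q hm hn => ?_) ?_ (fun u v hu hv => ?_) (fun c u hu => ?_)
  · rw [mulP_nmon]
    exact nmon_mem (by rw [map_add]; push_cast; omega) hn
  · simp
  · rw [mul_add]; exact add_mem hu hv
  · rw [mul_smul_comm]; exact Submodule.smul_mem _ _ hu

theorem mul_mem {m m' n n' : ℤ} {u v : Op} (hu : u ∈ fil m n) (hv : v ∈ fil m' n') :
    u * v ∈ fil (m + m') (n + n') := by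
  refine fil_induction (motive := fun u => u * v ∈ fil (m + m') (n + n')) hu
    (fun p q hm hn => ?_) ?_ (fun u w hu hw => ?_) (fun c u hu => ?_)
  · rw [nmon, mul_assoc]
    refine fil_mono (n := n' + q.degree) (by omega) ?_
    convert mulP_mul_mem (dpow_mul_mem hv q) p using 2
    omega
  · simp
  · rw [add_mul]; exact add_mem hu hw
  · rw [smul_mul_assoc]; exact Submodule.smul_mem _ _ hu

theorem fil_finite (m n : ℤ) : Module.Finite ℂ (fil m n) := by
  classical
  rw [Module.Finite.iff_fg]
  refine Submodule.fg_span ?_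
  let S : ℕ → Finset Exp := fun k => (Finset.univ : Finset (Fin 2)).finsuppAntidiag k
  have hS : ∀ p : Exp, p ∈ S p.degree := fun p => by
    simp [S, Finset.mem_finsuppAntidiag, Finsupp.degree_eq_sum]
  refine Set.Finite.subset (((Finset.range ((m + n).toNat + 1)).biUnion S ×ˢ
    (Finset.range (n.toNat + 1)).biUnion S).image fun z => nmon z.1 z.2).finite_toSet ?_
  rintro _ ⟨p, q, hm, hn, rfl⟩
  simp only [Finset.coe_image, Set.mem_image, Finset.mem_coe, Finset.mem_product,
    Finset.mem_biUnion, Finset.mem_range]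
  exact ⟨(p, q), ⟨⟨p.degree, by omega, hS p⟩, ⟨q.degree, by omega, hS q⟩⟩, rfl⟩

/-- Commutator with a variable. -/
def adx (a : Fin 2) : Module.End ℂ Op :=
  LinearMap.mulRight ℂ (x a) - LinearMap.mulLeft ℂ (x a)

theorem adx_nmon (a : Fin 2) (p q : Exp) :
    adx a (nmon p q) = (q a : ℂ) • nmon p (q - single a 1) := by
  simp only [adx, LinearMap.sub_apply, LinearMap.mulRight_apply, LinearMap.mulLeft_apply, nmon]
  rw [mul_assoc, dpow_x, mul_add, ← mul_assoc (mulP _) (x a), ← x_comm_mulP, mul_assoc (x a),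
    add_sub_cancel_left, mul_smul_comm, Nat.cast_smul_eq_nsmul]

theorem adx_pow_nmon (a : Fin 2) (p q : Exp) (k : ℕ) :
    (adx a ^ k) (nmon p q) = ((q a).descFactorial k : ℂ) • nmon p (q - single a k) := by
  induction k with
  | zero => simp
  | succ k ih =>
    rw [pow_succ', Module.End.mul_apply, ih, map_smul, adx_nmon, smul_smul,
      Nat.descFactorial_succ, tsub_tsub, ← Finsupp.single_add]
    simp [mul_comm]

theorem d_pow_one_eq_zero (a : Fin 2) {k : ℕ} (h : k ≠ 0) : (d a ^ k) (1 : Pol) = 0 := by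
  obtain ⟨k, rfl⟩ := Nat.exists_eq_succ_of_ne_zero h
  rw [pow_succ, Module.End.mul_apply, d_apply, pderiv_one, map_zero]

theorem nmon_apply_one (p r : Exp) :
    nmon p r (1 : Pol) = if r = 0 then monomial p 1 else 0 := by
  rw [nmon, Module.End.mul_apply, mulP_apply]
  split_ifs with h
  · simp [h]
  · suffices dpow r (1 : Pol) = 0 by rw [this, mul_zero]
    rw [dpow, Module.End.mul_apply]
    rcases eq_or_ne (r 1) 0 with h1 | h1
    · have h0 : r 0 ≠ 0 := fun h0 => h (by ext i; fin_cases i <;> simp [h0, h1])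
      simp [h1, d_pow_one_eq_zero 0 h0]
    · simp [d_pow_one_eq_zero 1 h1]

/-- The coefficient of `∂^q` in normal form. -/
def coef (q : Exp) : Op →ₗ[ℂ] Pol :=
  (((q 0).factorial * (q 1).factorial : ℂ)⁻¹) •
    ((LinearMap.applyₗ (1 : Pol)).comp (adx 0 ^ q 0 * adx 1 ^ q 1))

theorem coef_nmon (q p s : Exp) : coef q (nmon p s) = if s = q then monomial p 1 else 0 := by
  rw [coef, LinearMap.smul_apply, LinearMap.comp_apply, Module.End.mul_apply, adx_pow_nmon,
    map_smul, adx_pow_nmon, smul_smul, map_smul, LinearMap.applyₗ_apply_apply, nmon_apply_one,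
    smul_smul]
  split_ifs with h1 h2 h2
  · subst h2
    simp [Nat.descFactorial_self, Nat.factorial_ne_zero, mul_comm, mul_left_comm]
  · obtain ⟨i, hi⟩ : ∃ i, s i < q i := by
      by_contra hc
      push Not at hc
      refine h2 (Finsupp.ext fun i => ?_)
      have e := DFunLike.congr_fun h1 i
      have := hc i
      fin_cases i <;> simp at e this ⊢ <;> omega
    fin_cases i <;> simp at hi <;> simp [Nat.descFactorial_eq_zero_iff_lt.mpr hi]
  · exact absurd (by subst h2; ext i; fin_cases i <;> simp) h1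
  · simp

theorem coef_eq_zero {m n : ℤ} {u : Op} (hu : u ∈ fil m n) {q : Exp} (h : n < q.degree) :
    coef q u = 0 := by
  refine fil_induction (motive := fun u => coef q u = 0) hu (fun p s _ hn => ?_) (map_zero _)
    (fun u v hu hv => ?_)
    (fun c u hu => ?_)
  · rw [coef_nmon, if_neg]; rintro rfl; omega
  · rw [map_add, hu, hv, add_zero]
  · rw [map_smul, hu, smul_zero]

theorem coef_homog {m n : ℤ} {u : Op} (hu : u ∈ fil m n) (q : Exp) :
    ∀ p : Exp, (p.degree : ℤ) - q.degree ≠ m → coeff p (coef q u) = 0 := by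
  refine fil_induction (motive := fun u => ∀ p : Exp, (p.degree : ℤ) - q.degree ≠ m →
      coeff p (coef q u) = 0) hu (fun r s hm _ p hp => ?_) (by simp) (fun u v hu hv p hp => ?_)
    (fun c u hu p hp => ?_)
  · rw [coef_nmon]
    split_ifs with h
    · subst h
      rw [coeff_monomial, if_neg]; rintro rfl; exact hp hm
    · rw [coeff_zero]
  · rw [map_add, coeff_add, hu p hp, hv p hp, add_zero]
  · rw [map_smul, coeff_smul, hu p hp, smul_zero]

/-- All exponents of degree at most `N`. -/
def expLE (N : ℕ) : Finset Exp :=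
  (Finset.range (N + 1)).biUnion fun k => (Finset.univ : Finset (Fin 2)).finsuppAntidiag k

theorem mem_expLE {N : ℕ} {q : Exp} : q ∈ expLE N ↔ q.degree ≤ N := by
  simp [expLE, Finset.mem_finsuppAntidiag, Finsupp.degree_eq_sum]

theorem eq_sum_coef {m : ℤ} {n : ℕ} {u : Op} (hu : u ∈ fil m n) :
    u = ∑ q ∈ expLE n, mulP (coef q u) * dpow q := by
  refine fil_induction (motive := fun u => u = ∑ q ∈ expLE n, mulP (coef q u) * dpow q) hu
    (fun p s _ hn => ?_) (by simp) (fun u v hu hv => ?_) (fun c u hu => ?_)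
  · rw [Finset.sum_eq_single s (fun q _ hq => by simp [coef_nmon, Ne.symm hq])
      (fun h => absurd (mem_expLE.mpr (by omega)) h)]
    rw [coef_nmon, if_pos rfl]
    rfl
  · conv_lhs => rw [hu, hv]
    simp [← Finset.sum_add_distrib, add_mul]
  · conv_lhs => rw [hu]
    simp [Finset.smul_sum]

theorem mem_fil_pred {m : ℤ} {n : ℕ} {u : Op} (hu : u ∈ fil m n)
    (h : ∀ q : Exp, q.degree = n → coef q u = 0) : u ∈ fil m ((n : ℤ) - 1) := by
  rw [eq_sum_coef hu]
  refine Submodule.sum_mem _ fun q hq => ?_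
  rw [mem_expLE] at hq
  rcases hq.lt_or_eq with hlt | heq
  · rw [(coef q u).as_sum, map_sum, Finset.sum_mul]
    refine Submodule.sum_mem _ fun p hp => ?_
    have hm : (p.degree : ℤ) - q.degree = m := by
      by_contra hne
      exact (MvPolynomial.mem_support_iff.mp hp) (coef_homog hu q p hne)
    rw [show monomial p (coeff p (coef q u)) = coeff p (coef q u) • monomial p (1 : ℂ) by
      rw [smul_monomial, smul_eq_mul, mul_one], map_smul, smul_mul_assoc]
    exact Submodule.smul_mem _ _ (nmon_mem hm (by omega))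
  · rw [h q heq, map_zero, zero_mul]
    exact zero_mem _

end Vale.Agent.P195.Weyl
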